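import Mathlib

/-!
# P097F.A: the maximal inequality for a rotation and the selection of dense places
-/

set_option linter.all false

noncomputable section

namespace Vale.Agent.P097F.A

open Filter Topology Set MeasureTheory

/-- the running maximum of the partial sums -/
def MM (f : ℝ → ℝ) (d : ℝ) : ℕ → ℝ → ℝ
  | 0 => fun _ => 0
  | N + 1 => fun s => max 0 (f s + MM f d N (s + d))

variable {f : ℝ → ℝ} {d : ℝ}

theorem MM_nn (N : ℕ) (s : ℝ) : 0 ≤ MM f d N s := by
  cases N with
  | zero => exact le_rfl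
  | succ N => exact le_max_left _ _

theorem MM_le (h : ∀ s, f s ≤ 1) (N : ℕ) : ∀ s, MM f d N s ≤ N := by
  induction N with
  | zero => intro s; simp [MM]
  | succ N ih =>
    intro s
    refine max_le (by positivity) ?_
    have := h s
    have := ih (s + d)
    push_cast
    linarith

theorem MM_mono (N : ℕ) : ∀ s, MM f d N s ≤ MM f d (N + 1) s := by
  induction N with
  | zero => intro s; exact MM_nn 1 s
  | succ N ih => intro s; exact max_le_max le_rfl (by linarith [ih (s + d)])

theorem MM_meas (h : Measurable f) (N : ℕ) : Measurable (MM f d N) := by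
  induction N with
  | zero => exact measurable_const
  | succ N ih => exact measurable_const.max (h.add (ih.comp (measurable_add_const d)))

theorem MM_per (h : Function.Periodic f 1) (N : ℕ) : Function.Periodic (MM f d N) 1 := by
  induction N with
  | zero => intro s; rfl
  | succ N ih =>
    intro s
    show max 0 (f (s + 1) + MM f d N (s + 1 + d)) = max 0 (f s + MM f d N (s + d))
    rw [h s, add_right_comm, ih]

theorem sum_le (N : ℕ) : ∀ s, ∑ k ∈ Finset.range N, f (s + d * k) ≤ MM f d N s := by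
  induction N with
  | zero => intro s; simp [MM]
  | succ N ih =>
    intro s
    rw [Finset.sum_range_succ']
    refine le_trans ?_ (le_max_right _ _)
    have := ih (s + d)
    have e : ∀ k : ℕ, s + d * ((k + 1 : ℕ) : ℝ) = s + d + d * k := fun k => by push_cast; ring
    simp only [e, Nat.cast_zero, mul_zero, add_zero]
    linarith

/-- the sign of the set `B` -/
def sgn (B : Set ℝ) (s : ℝ) : ℝ := 2 * B.indicator 1 s - 1

theorem one_le {B : Set ℝ} (hB : MeasurableSet B) (per : ∀ s, s + 1 ∈ B ↔ s ∈ B) (N : ℕ) :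
    volume ({s | 0 < MM (sgn B) d N s} ∩ Ico 0 1) ≤ 2 * volume (B ∩ Ico 0 1) := by
  have m : Measurable (sgn B) :=
    ((measurable_one.indicator hB).const_mul 2).sub measurable_const
  have p : Function.Periodic (sgn B) 1 := fun s => by
    by_cases h : s ∈ B
    · simp [sgn, indicator, h, (per s).2 h]
    · simp [sgn, indicator, h, mt (per s).1 h]
  have l : ∀ s, sgn B s ≤ 1 := fun s => by
    by_cases h : s ∈ B <;> simp [sgn, indicator, h] <;> norm_num
  set M := MM (sgn B) d N with hM
  set E := {s | 0 < M s} with hE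
  have mM : Measurable M := MM_meas m N
  have mE : MeasurableSet E := measurableSet_lt measurable_const mM
  have pt : ∀ s, M s + E.indicator 1 s ≤ 2 * B.indicator 1 s + M (s + d) := by
    intro s
    have b0 : (0 : ℝ) ≤ B.indicator 1 s := indicator_nonneg (fun _ _ => zero_le_one) s
    by_cases h : s ∈ E
    · rw [indicator_of_mem h]
      have h' : 0 < MM (sgn B) d N s := h
      cases N with
      | zero => exact absurd h' (lt_irrefl _)
      | succ N =>
        have e : M s = sgn B s + MM (sgn B) d N (s + d) :=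
          max_eq_right ((lt_max_iff.1 h').resolve_left (lt_irrefl _)).le
        have := MM_mono (f := sgn B) (d := d) N (s + d)
        rw [e, sgn]
        simp only [Pi.one_apply]
        linarith
    · rw [indicator_of_notMem h]
      have h1 : M s ≤ 0 := not_lt.1 h
      have h2 : 0 ≤ M (s + d) := MM_nn N _
      linarith
  have ib : ∀ (k : ℝ → ℝ) (C : ℝ), Measurable k → (∀ s, |k s| ≤ C) →
      Integrable k (volume.restrict (Ioc (0 : ℝ) 1)) := fun k C hk h =>
    Integrable.of_bound hk.aestronglyMeasurable C (Eventually.of_forall h)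
  have bM : ∀ s, |M s| ≤ N := fun s => by rw [abs_of_nonneg (MM_nn N s)]; exact MM_le l N s
  have bi : ∀ (S : Set ℝ) s, |S.indicator (1 : ℝ → ℝ) s| ≤ 1 := fun S s => by
    by_cases h : s ∈ S <;> simp [indicator, h]
  have i1 := ib M N mM bM
  have i2 := ib (fun s => M (s + d)) N (mM.comp (measurable_add_const d)) fun s => bM _
  have i3 := ib _ 1 (measurable_one.indicator mE) (bi E)
  have i4 := ib _ 1 (measurable_one.indicator hB) (bi B)
  have k := integral_mono (i1.add i3) ((i4.const_mul 2).add i2) pt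
  have sh : ∫ s in Ioc (0 : ℝ) 1, M (s + d) = ∫ s in Ioc (0 : ℝ) 1, M s := by
    rw [← intervalIntegral.integral_of_le zero_le_one,
      ← intervalIntegral.integral_of_le zero_le_one, intervalIntegral.integral_comp_add_right,
      add_comm 1 d, zero_add, (MM_per p N).intervalIntegral_add_eq d 0, zero_add]
  have k1 := integral_add i1 i3
  have k2 := integral_add (i4.const_mul 2) i2
  simp only [Pi.add_apply] at k
  rw [k1, k2, sh, integral_const_mul, integral_indicator_one mE, integral_indicator_one hB] at k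
  have k3 : (volume.restrict (Ioc (0 : ℝ) 1)).real E ≤
      2 * (volume.restrict (Ioc (0 : ℝ) 1)).real B := by linarith
  rw [← Measure.restrict_apply mE, ← Measure.restrict_apply hB, restrict_Ico_eq_restrict_Ioc]
  rw [← ENNReal.toReal_le_toReal (measure_ne_top _ _)
    (ENNReal.mul_ne_top (by simp) (measure_ne_top _ _))]
  simpa [Measure.real] using k3

/-- **the maximal inequality** -/
theorem maxi {B : Set ℝ} (hB : MeasurableSet B) (per : ∀ s, s + 1 ∈ B ↔ s ∈ B) (d : ℝ) :
    volume ({s | ∃ N : ℕ, 0 < ∑ k ∈ Finset.range N, sgn B (s + d * k)} ∩ Ico 0 1) ≤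
      2 * volume (B ∩ Ico 0 1) := by
  have mo : Monotone fun N => {s | 0 < MM (sgn B) d N s} ∩ Ico (0 : ℝ) 1 :=
    monotone_nat_of_le_succ fun N s hs => ⟨lt_of_lt_of_le hs.1 (MM_mono N s), hs.2⟩
  refine le_trans (measure_mono (t := ⋃ N, {s | 0 < MM (sgn B) d N s} ∩ Ico (0 : ℝ) 1) ?_) ?_
  · rintro s ⟨⟨N, h⟩, m⟩
    exact mem_iUnion.2 ⟨N, h.trans_le (sum_le N s), m⟩
  · rw [mo.measure_iUnion]
    exact iSup_le fun N => one_le hB per N

open Classical in
theorem cnt {B : Set ℝ} {s d : ℝ}
    (h1 : ∀ N : ℕ, ∑ k ∈ Finset.range N, sgn B (s + d * k) ≤ 0)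
    (h2 : ∀ N : ℕ, ∑ k ∈ Finset.range N, sgn B (s + -d * k) ≤ 0) :
    s ∉ B ∧ ∀ t : ℕ, t ≤ ((Finset.Icc (-(t : ℤ)) t).filter fun k : ℤ => s + d * k ∉ B).card := by
  have c : ∀ (e : ℝ) (N : ℕ), ∑ k ∈ Finset.range N, sgn B (s + e * k) ≤ 0 →
      N ≤ 2 * ((Finset.range N).filter fun k : ℕ => s + e * k ∉ B).card := by
    intro e N h
    have e1 : ∑ k ∈ Finset.range N, sgn B (s + e * k) =
        ∑ k ∈ Finset.range N, (1 - 2 * (if s + e * k ∉ B then (1 : ℝ) else 0)) :=
      Finset.sum_congr rfl fun k _ => by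
        by_cases m : s + e * k ∈ B <;> simp [sgn, indicator, m] <;> norm_num
    rw [e1, Finset.sum_sub_distrib, ← Finset.mul_sum, Finset.sum_boole] at h
    simp only [Finset.sum_const, Finset.card_range, nsmul_eq_mul, mul_one] at h
    have : (N : ℝ) ≤ 2 * ((Finset.range N).filter fun k : ℕ => s + e * k ∉ B).card := by linarith
    exact_mod_cast this
  refine ⟨fun m => ?_, fun t => ?_⟩
  · have := h1 1
    norm_num [sgn, indicator, m] at this
  have a1 := c d (t + 1) (h1 _)
  have a2 := c (-d) (t + 1) (h2 _)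
  set P := (Finset.range (t + 1)).filter fun k : ℕ => s + d * k ∉ B
  set Q := (Finset.range (t + 1)).filter fun k : ℕ => s + -d * k ∉ B
  set P' := P.image fun k : ℕ => (k : ℤ)
  set Q' := Q.image fun k : ℕ => -(k : ℤ)
  have p1 : P'.card = P.card := Finset.card_image_of_injective _ Nat.cast_injective
  have q1 : Q'.card = Q.card :=
    Finset.card_image_of_injective _ fun a b h => Nat.cast_injective (neg_injective h)
  have i1 : (P' ∩ Q').card ≤ 1 := by
    refine (Finset.card_le_card (t := {0}) fun k hk => ?_).trans (by simp)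
    obtain ⟨⟨a, -, ha⟩, ⟨b, -, hb⟩⟩ :=
      (Finset.mem_inter.1 hk).imp Finset.mem_image.1 Finset.mem_image.1
    simp only [Finset.mem_singleton]
    omega
  have u1 := Finset.card_union_add_card_inter P' Q'
  refine le_trans (by omega) (Finset.card_le_card (s := P' ∪ Q') fun k hk => ?_)
  rcases Finset.mem_union.1 hk with h | h
  · obtain ⟨a, m, rfl⟩ := Finset.mem_image.1 h
    obtain ⟨m1, m2⟩ := Finset.mem_filter.1 m
    have := Finset.mem_range.1 m1
    exact Finset.mem_filter.2 ⟨Finset.mem_Icc.2 (by omega), by simpa using m2⟩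
  · obtain ⟨a, m, rfl⟩ := Finset.mem_image.1 h
    obtain ⟨m1, m2⟩ := Finset.mem_filter.1 m
    have := Finset.mem_range.1 m1
    exact Finset.mem_filter.2 ⟨Finset.mem_Icc.2 (by omega), by simpa using m2⟩

open Classical in
/-- one window -/
theorem pick {A B B' : Set ℝ} {φ : ℝ} (hφ : 0 < φ) (hB : MeasurableSet B)
    (per : ∀ s, s + 1 ∈ B ↔ s ∈ B) (hA : A ⊆ Ico 0 1) (mA : ENNReal.ofReal φ ≤ volume A)
    (mB : volume (B ∩ Ico 0 1) ≤ ENNReal.ofReal (φ / 6))
    (mB' : volume B' ≤ ENNReal.ofReal (φ / 6)) (d : ℝ) : ∃ s ∈ A, s ∉ B' ∧ s ∉ B ∧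
      ∀ t : ℕ, t ≤ ((Finset.Icc (-(t : ℤ)) t).filter fun k : ℤ => s + d * k ∉ B).card := by
  by_contra k
  have sub : A ⊆ B' ∪ ({s | ∃ N : ℕ, 0 < ∑ k ∈ Finset.range N, sgn B (s + d * k)} ∩ Ico 0 1 ∪
      {s | ∃ N : ℕ, 0 < ∑ k ∈ Finset.range N, sgn B (s + -d * k)} ∩ Ico 0 1) := by
    intro s hs
    by_contra n
    simp only [mem_union, mem_inter_iff, mem_setOf_eq, hA hs, and_true, not_or, not_exists,
      not_lt] at n
    exact k ⟨s, hs, n.1, cnt n.2.1 n.2.2⟩
  have b := (measure_mono (μ := volume) sub).trans ((measure_union_le _ _).trans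
    (add_le_add mB' ((measure_union_le _ _).trans (add_le_add (maxi hB per d) (maxi hB per (-d))))))
  have c : 2 * volume (B ∩ Ico 0 1) ≤ ENNReal.ofReal (φ / 3) := by
    refine le_trans (mul_le_mul_right mB 2) ?_
    rw [two_mul, ← ENNReal.ofReal_add (by positivity) (by positivity)]
    exact ENNReal.ofReal_le_ofReal (by linarith)
  have e := mA.trans (b.trans (add_le_add le_rfl (add_le_add c c)))
  rw [← ENNReal.ofReal_add (by positivity) (by positivity),
    ← ENNReal.ofReal_add (by positivity) (by positivity),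
    ENNReal.ofReal_le_ofReal_iff (by positivity)] at e
  linarith

open Classical in
/-- the pigeonhole principle along an ultrafilter -/
theorem dens (𝒰 : Ultrafilter ℕ) {P : ℕ → ℤ → Prop} (t : ℕ)
    (h : ∀ n, t ≤ ((Finset.Icc (-(t : ℤ)) t).filter (P n)).card) :
    ∃ J : Finset ℤ, (∀ k ∈ J, |k| ≤ t ∧ ∀ᶠ n in (𝒰 : Filter ℕ), P n k) ∧ t ≤ J.card := by
  have f : ((Finset.Icc (-(t : ℤ)) t).powerset : Set (Finset ℤ)).Finite := Finset.finite_toSet _
  obtain ⟨J, -, e⟩ := (𝒰.map fun n => (Finset.Icc (-(t : ℤ)) t).filter (P n)).eq_pure_of_finite_mem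
    f (by
      rw [Ultrafilter.mem_map]
      exact univ_mem' fun n => mem_preimage.2
        (Finset.mem_coe.2 (Finset.mem_powerset.2 (Finset.filter_subset _ _))))
  have ev : ∀ᶠ n in (𝒰 : Filter ℕ), (Finset.Icc (-(t : ℤ)) t).filter (P n) = J := by
    have : {J} ∈ 𝒰.map fun n => (Finset.Icc (-(t : ℤ)) t).filter (P n) := by
      rw [e]
      exact Ultrafilter.mem_pure.2 rfl
    exact this
  obtain ⟨n, hn⟩ := ev.exists
  refine ⟨J, fun k hk => ⟨?_, ev.mono fun m hm => (Finset.mem_filter.1 (hm ▸ hk)).2⟩, hn ▸ h n⟩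
  exact abs_le.2 (Finset.mem_Icc.1 (Finset.mem_filter.1 (hn ▸ hk)).1)

end Vale.Agent.P097F.A
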