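import Vale.Agent.P097F.Defs
import Vale.Agent.P097F.A.Max
import Vale.Agent.P097F.T.All
import Vale.Agent.P097Mo.Win
import Vale.Agent.P299.H720.Montel

/-!
# P097F.A: selection of the circle windows
-/

set_option linter.all false

noncomputable section

namespace Vale.Agent.P097F.A

open Filter Topology Set Metric Complex MeasureTheory Vale.Agent.P097T
open Vale.Agent.P097D (Lo)
open Vale.Agent.P097W (Envl)

/-- the majorant of the window functions -/
def mj (M : ℝ) (p : ℕ) (z : ℂ) : ℝ :=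
  2 * max 1 (M * (max (-z.im) (1 / -z.im) * (1 + |z.re| / -z.im)) ^ 2) *
    (-z.im + 1 / (-z.im) ^ p) / -z.im

theorem mj_cont (M : ℝ) (p : ℕ) {z : ℂ} (h : z.im < 0) : ContinuousAt (mj M p) z := by
  have n : -z.im ≠ 0 := (neg_pos.2 h).ne'
  have c : ContinuousAt (fun z : ℂ => -z.im) z := continuous_im.neg.continuousAt
  have r : ContinuousAt (fun z : ℂ => |z.re|) z := continuous_re.abs.continuousAt
  exact ((continuousAt_const.mul (continuousAt_const.max (continuousAt_const.mul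
    (((c.max (continuousAt_const.div c n)).mul (continuousAt_const.add (r.div c n))).pow 2)))).mul
      (c.add (continuousAt_const.div (c.pow p) (pow_ne_zero p n)))).div c n

theorem wy_im (X : DD) (u s : ℝ) (z : ℂ) : (X.wy u s z).im = X.r + X.η u * z.im := by
  simp [DD.wy]

theorem wy_re (X : DD) (u s : ℝ) (z : ℂ) : (X.wy u s z).re = s + X.η u * z.re := by
  simp [DD.wy]

theorem bound (X : DD) {a : ℝ → ℝ} {N j : ℕ} {M u s : ℝ} (E : Envl X.η X.u₀ X.p N a) (N1 : 1 ≤ N)
    (j1 : 1 ≤ j) (P : X.Pk a u) (G : P097W.Good X.r (deriv X.θ) X.Q a (X.η u) j M s) {z : ℂ}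
    (z0 : z.im < 0) (z1 : X.η u * -z.im ≤ X.r) : ‖X.gw u s z‖ ≤ mj M X.p z := by
  obtain ⟨m, d0, pk⟩ := P
  have u0 := m.1
  set d := X.η u with hd
  set t := -z.im with ht
  have t0 : 0 < t := neg_pos.2 z0
  have e1 : X.r - (X.wy u s z).im = d * t := by rw [wy_im]; ring
  have e2 : |(X.wy u s z).re - s| = d * |z.re| := by
    rw [wy_re, add_sub_cancel_left, abs_mul, abs_of_pos d0]
  have dt : 0 < d * t := by positivity
  have k := G (X.wy u s z) (by linarith) (by linarith)
  rw [e1, e2, show d * t / d = t by field_simp, show d / (d * t) = 1 / t by field_simp,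
    show d * |z.re| / (d * t) = |z.re| / t by field_simp] at k
  set R := max 1 (M * (max t (1 / t) * (1 + |z.re| / t)) ^ 2) with hR
  have R1 : 1 ≤ R := le_max_left _ _
  have a0 : 0 < a (d * t) := one_pos.trans_le (E.one _)
  have a1 : 0 < a d := one_pos.trans_le (E.one _)
  set w := ‖deriv X.θ (X.wy u s z)‖ with hw
  have w0 : 0 ≤ w := norm_nonneg _
  have k1 : P097M.Gs (deriv X.θ) X.Q (X.wy u s z) * (d * t) ^ 2 / a (d * t) ^ 2 ≤ R := by
    rcases le_total (P097M.Gs (deriv X.θ) X.Q (X.wy u s z) * (d * t) ^ 2 / a (d * t) ^ 2) 1 with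
      h | h
    · exact h.trans R1
    · exact (le_self_pow₀ h (by omega)).trans (k.trans (le_max_right _ _))
  have k2 : w * (d * t) ≤ R * a (d * t) := by
    rw [div_le_iff₀ (by positivity)] at k1
    refine abs_le_of_sq_le_sq' ?_ (by positivity) |>.2
    have g1 : w ^ 2 ≤ P097M.Gs (deriv X.θ) X.Q (X.wy u s z) :=
      le_add_of_nonneg_right (norm_nonneg _)
    calc _ = w ^ 2 * (d * t) ^ 2 := by ring
      _ ≤ _ := by gcongr
      _ ≤ R * a (d * t) ^ 2 := k1
      _ ≤ R * R * a (d * t) ^ 2 := by gcongr; nlinarith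
      _ = _ := by ring
  have k3 : a (d * t) ≤ a d * (t + 1 / t ^ X.p) := by
    have q0 : 0 < t ^ X.p := by positivity
    rcases le_total 1 t with h | h
    · have := E.dec (d * t) d d0 (by nlinarith)
      have b : a (d * t) ^ N ≤ (a d * t) ^ N := by
        refine le_of_mul_le_mul_right (this.trans ?_) d0
        have := le_self_pow₀ h (n := N) (by omega)
        calc _ = a d ^ N * t * d := by ring
          _ ≤ a d ^ N * t ^ N * d := by gcongr
          _ = _ := by rw [mul_pow]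
      refine (pow_le_pow_iff_left₀ a0.le (by positivity) (by omega) |>.1 b).trans ?_
      gcongr
      linarith [one_div_pos.2 q0]
    · have := E.grow d (d * t) dt (by nlinarith)
      rw [mul_pow] at this
      have b : a (d * t) * t ^ X.p ≤ a d :=
        le_of_mul_le_mul_right (by linarith) (pow_pos d0 X.p)
      rw [← le_div_iff₀ q0, div_eq_mul_one_div] at b
      refine b.trans ?_
      gcongr
      linarith
  rw [mj, le_div_iff₀ t0, DD.gw, norm_mul, norm_real, Real.norm_eq_abs, abs_of_pos u0]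
  refine le_of_mul_le_mul_right ?_ d0
  have s0 : 0 ≤ t + 1 / t ^ X.p := by positivity
  calc _ = u * (w * (d * t)) := by ring
    _ ≤ u * (R * (a d * (t + 1 / t ^ X.p))) :=
      mul_le_mul_of_nonneg_left (k2.trans (by gcongr)) u0.le
    _ = R * (t + 1 / t ^ X.p) * (a d * u) := by ring
    _ ≤ R * (t + 1 / t ^ X.p) * (2 * d) := by gcongr
    _ = _ := by ring

theorem gw_diff (X : DD) {u : ℝ} (s : ℝ) (d0 : 0 < X.η u) :
    DifferentiableOn ℂ (X.gw u s) {y | -(X.r / X.η u) < y.im ∧ y.im < 0} := by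
  have o : IsOpen (Strip X.r) := isOpen_lt continuous_im.abs continuous_const
  refine (((X.dat.cur.dθ.deriv o).comp (f := X.wy u s) ?_ fun z hz => ?_).const_mul (u : ℂ))
  · unfold DD.wy
    fun_prop
  · show |(X.wy u s z).im| < X.r
    have h1 : X.η u * z.im < 0 := mul_neg_of_pos_of_neg d0 hz.2
    have h2 : -X.r < X.η u * z.im := by
      have := hz.1
      rw [neg_lt, lt_div_iff₀ d0] at this
      linarith
    rw [wy_im, abs_of_pos (by linarith)]
    linarith

theorem typ : ∃ C : ℝ, ∀ (X : DD) (u e : ℝ), 0 < X.η u → 0 < e →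
    volume {s : ℝ | s ∈ Ico (0 : ℝ) 1 ∧
      ¬ T.Typ (X.gw u s) (1 + I) (1 / X.η u) (X.r / X.η u) (C / e)} ≤ ENNReal.ofReal e := by
  obtain ⟨C, -, h⟩ := T.selC
  refine ⟨C, fun X u e d0 e0 => ?_⟩
  have k := h (X.gw u 0) (1 + I) (X.r / X.η u) (1 / X.η u) (1 / X.η u) e
    (fun q => by simpa using congrArg re q) (by positivity) le_rfl e0 (gw_diff X 0 d0)
  have q : ∀ s : ℝ, (fun y => X.gw u 0 (y + ((X.η u)⁻¹ * s : ℝ))) = X.gw u s := fun s => by
    ext y
    have : (X.η u : ℂ) ≠ 0 := by exact_mod_cast d0.ne'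
    simp only [DD.gw, DD.wy]
    congr 2
    push_cast
    field_simp
    ring
  refine le_trans (measure_mono (t := (fun s => (X.η u)⁻¹ * s) ⁻¹' {a : ℝ | a ∈ Ico 0 (1 / X.η u) ∧
    ¬ T.Typ (fun y => X.gw u 0 (y + a)) (1 + I) (1 / X.η u) (X.r / X.η u) (C / e)})
    fun s hs => ⟨⟨mul_nonneg (by positivity) hs.1.1, ?_⟩, by rw [q]; exact hs.2⟩) ?_
  · rw [one_div]
    exact mul_lt_of_lt_one_right (by positivity) hs.1.2
  rw [Real.volume_preimage_mul_left (by positivity), inv_inv, abs_of_pos d0]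
  refine (mul_le_mul_right k _).trans ?_
  rw [← ENNReal.ofReal_mul d0.le]
  exact ENNReal.ofReal_le_ofReal (le_of_eq (by field_simp))

theorem specA : Spec_A := by
  classical
  intro X j j1
  have D := X.dat
  have r0 := D.cur.rpos
  have u0 := D.fam.pos
  obtain ⟨N₀, N8, mom⟩ := P097W.h2d X.r X.c (X.u₀ / 2) X.θ X.H X.Q (X.p + 1) D.cur (by omega)
    (by positivity) j
  refine ⟨N₀, fun N hN a E ⟨φ, δ, C₁, φ0, δ0, C1, circ⟩ => ?_⟩
  obtain ⟨M, -, good⟩ := P097W.good1 X.r (deriv X.θ) X.Q _ r0 (fun a ha => ha.1.1) j mom (φ / 6) j1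
    (by positivity)
  obtain ⟨C, ty⟩ := typ
  choose u pk big me using fun n : ℕ => circ (n + 1)
  have d0 : ∀ n, 0 < X.η (u n) := fun n => (pk n).2.1
  have v0 : ∀ n, 0 < u n := fun n => (pk n).1.1
  choose B oB pB mB gB using fun n => good a ⟨E.env0 (fun u m e k => D.fam.rch m k)
    (by linarith), E.dec.mono E.one hN⟩ _ (d0 n)
  choose s sA sT sB sD using fun n => pick φ0 (oB n).measurableSet (pB n) (fun s hs => hs.1) (me n)
    (mB n) (ty X (u n) (φ / 6) (d0 n) (by positivity)) (X.η (u n))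
  have z1 : Tendsto (fun n : ℕ => 1 / ((n : ℝ) + 1)) atTop (𝓝 0) :=
    tendsto_one_div_add_atTop_nhds_zero_nat
  have ep : Tendsto (fun n => X.ep (u n)) atTop (𝓝 0) :=
    squeeze_zero (fun n => (div_pos (v0 n) (d0 n)).le) (fun n => by
      rw [DD.ep, div_le_div_iff₀ (d0 n) (by positivity)]
      linarith [big n]) z1
  have ul : Tendsto u atTop (𝓝 0) :=
    squeeze_zero (g := fun n : ℕ => X.r * (1 / ((n : ℝ) + 1))) (fun n => (v0 n).le) (fun n => by
      rw [mul_one_div, le_div_iff₀ (by positivity)]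
      linarith [big n, D.fam.low _ (pk n).1, D.fam.sol.pos]) (by simpa using z1.const_mul X.r)
  have dl : Tendsto (fun n => X.η (u n)) atTop (𝓝 0) := by
    obtain ⟨K, hK⟩ := D.pw
    refine tendsto_order.2 ⟨fun b hb => Eventually.of_forall fun n => hb.trans (d0 n), fun b hb => ?_⟩
    have : Tendsto (fun n => K * u n) atTop (𝓝 0) := by simpa using ul.const_mul K
    filter_upwards [this.eventually (gt_mem_nhds (pow_pos hb (X.p + 1)))] with n hn
    exact lt_of_pow_lt_pow_left₀ _ hb.le ((hK _ (pk n).1).trans_lt hn)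
  have il : Tendsto (fun n => (X.η (u n))⁻¹) atTop atTop :=
    tendsto_inv_nhdsGT_zero.comp (tendsto_nhdsWithin_iff.2 ⟨dl, Eventually.of_forall d0⟩)
  have Tl : Tendsto (fun n => X.r / X.η (u n)) atTop atTop := il.const_mul_atTop r0
  set 𝒰 : Ultrafilter ℕ := hyperfilter ℕ
  have le : (𝒰 : Filter ℕ) ≤ atTop := Nat.hyperfilter_le_atTop
  have lb : P299.H720.LocBdd (𝒰 : Filter ℕ) (fun n => X.gw (u n) (s n)) T.LH := by
    intro z hz
    obtain ⟨ρ, ρ0, hρ⟩ := Metric.eventually_nhds_iff_ball.1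
      (((mj_cont M X.p hz).eventually (gt_mem_nhds (lt_add_one _))).and
        ((T.isOpen_LH.eventually_mem hz).and
          (continuous_im.continuousAt.eventually (lt_mem_nhds (sub_one_lt z.im)))))
    refine ⟨ρ, ρ0, mj M X.p z + 1, ?_⟩
    filter_upwards [le (Tl.eventually_ge_atTop (1 - z.im))] with n hn
    have hn' : 1 - z.im ≤ X.r / X.η (u n) := hn
    refine ⟨(gw_diff X _ (d0 n)).mono fun y hy => ⟨by linarith [(hρ y hy).2.2], (hρ y hy).2.1⟩,
      fun y hy => (bound X E (by omega) j1 (pk n) (gB n _ (sB n)) (hρ y hy).2.1 ?_).trans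
        (hρ y hy).1.le⟩
    rw [le_div_iff₀ (d0 n)] at hn'
    nlinarith [(hρ y hy).2.2, d0 n]
  obtain ⟨g, dg, lu, cc⟩ := P299.H720.montel_full 𝒰 T.isOpen_LH lb
  have cv : P097N.Cv X.θ X.H X.Q X.c (P097N.St X.r) :=
    ⟨isOpen_lt continuous_im.abs continuous_const, D.cur.dθ, D.cur.dH, D.cur.dQ,
      by exact_mod_cast D.cur.cpos.ne', D.cur.laz, D.cur.ode⟩
  have sq := P097Mo.seq_win (l := 𝒰) cv r0 s d0 v0 (dl.mono_left le) (ep.mono_left le) dg cc
  refine ⟨M, 𝒰, u, s, g, le, pk, ep, ?_, ?_, Eventually.of_forall fun n => ?_, fun t => ?_, ?_⟩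
  · have e : (fun n => X.cw (u n)) = fun n => (X.η (u n) : ℂ) ^ 3 * X.c := by
      ext n
      exact mul_comm _ _
    rw [e]
    exact sq
  · choose z zm z2 z3 z4 z5 using fun n => (sA n).2
    have K : IsCompact (closedBall (0 : ℂ) (2 * C₁) ∩ {z : ℂ | z.im ≤ -(1 / C₁)}) :=
      (isCompact_closedBall _ _).inter_right (isClosed_le continuous_im continuous_const)
    have c0 : 0 < 1 / C₁ := by positivity
    obtain ⟨y, ym, hy⟩ := K.ultrafilter_le_nhds (𝒰.map z) (by
      rw [Ultrafilter.coe_map, le_principal_iff]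
      refine mem_map.2 (univ_mem' fun n => mem_preimage.2 ⟨mem_closedBall_zero_iff.2 ?_, ?_⟩)
      · have := norm_le_abs_re_add_abs_im (z n)
        rw [abs_of_neg (a := (z n).im) (by linarith [z3 n])] at this
        linarith [z2 n, z4 n]
      · show (z n).im ≤ _
        linarith [z3 n])
    have y0 : y.im < 0 := lt_of_le_of_lt ym.2 (by linarith)
    refine ⟨y, y0, norm_pos_iff.1 (δ0.trans_le ?_)⟩
    exact ge_of_tendsto' (cc y y0 z hy).norm z5
  · simpa using gB n _ (sB n)
  · obtain ⟨J, h1, h2⟩ := dens 𝒰 (P := fun n k => s n + X.η (u n) * k ∉ B n) t fun n =>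
      (sD n t).trans (Finset.card_le_card fun k hk => by simpa using hk)
    exact ⟨J, fun k hk => ⟨(h1 k hk).1, (h1 k hk).2.mono fun n hn => gB n _ hn⟩, h2⟩
  · refine T.lscC 𝒰 (fun n => X.gw (u n) (s n)) (fun n => 1 / X.η (u n))
      (fun n => X.r / X.η (u n)) g (1 + I) (C / (φ / 6)) (fun q => by simpa using congrArg re q)
      inferInstance ⟨by simpa using il.mono_left le, Tl.mono_left le, Eventually.of_forall fun n =>
        (gw_diff X _ (d0 n)).mono fun y hy => hy.2, lu, dg⟩ (Eventually.of_forall fun n => ?_)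
    exact not_not.1 fun q => sT n ⟨(sA n).1, q⟩

end Vale.Agent.P097F.A
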